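import Mathlib

/-!
# P052.TetrahedraInFour: row RCAP
-/

namespace Vale.Agent.P052.H839

/-- the case `κ, ω > 0`, in normalized variables -/
theorem cap_core {a b x y p q e g : ℝ} (ha : 1 ≤ a) (hb : 1 ≤ b) (hx0 : 0 < x) (hx1 : x < 1)
    (hy0 : 0 < y) (hy1 : y < 1) (hp : a / 5 ≤ p) (hq : b / 5 ≤ q) (he : 0 ≤ e)
    (hg : 0 ≤ g) (hgg : g ^ 2 = 2 * (p * q))
    (h2 : b + 4 * y + a + 4 * x - 4 ≤ e)
    (h3 : 0 ≤ a ^ 2 - 2 * p ^ 2 + 4 * x ^ 2 + b ^ 2 - 2 * q ^ 2 + 4 * y ^ 2 + 2 * e - 2 * a - 8 * x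
      - 2 * b - 8 * y + 4) : 4 * (x * y) < e + 2 * (p * q) := by
  by_contra hcon
  rw [not_lt] at hcon
  set σ : ℝ := (a - 1) + (b - 1) with hσ
  have hσ0 : 0 ≤ σ := by linarith
  have hg0 : g ^ 2 ≤ 4 * (x * y) := by rw [hgg]; linarith
  have hii : 2 + σ + g ^ 2 ≤ 4 * ((1 - x) * (1 - y)) := by rw [hgg, hσ]; linarith
  have hiii : 2 + 4 * g ^ 2 ≤ (a - 1) ^ 2 + (b - 1) ^ 2 + 4 * (1 - x - y) ^ 2 := by
    rw [hgg]
    nlinarith only [sq_nonneg (p - q), h3, hcon]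
  -- AM-GM
  have h4 : g ≤ x + y := by
    have h0 : g ^ 2 ≤ (x + y) ^ 2 := by nlinarith only [sq_nonneg (x - y), hg0]
    exact (pow_le_pow_iff_left₀ hg (by linarith only [hx0, hy0]) two_ne_zero).1 h0
  have h5 : 2 + σ + g ^ 2 ≤ (2 - x - y) ^ 2 := by
    nlinarith only [sq_nonneg (x - y), hii]
  have h6 : (2 - x - y) ^ 2 ≤ (2 - g) ^ 2 := by
    have h7 : 0 ≤ 2 - x - y := by linarith only [hx1, hy1]
    exact pow_le_pow_left₀ h7 (by linarith only [h4]) 2
  have h8 : σ ≤ 2 - 4 * g := by nlinarith only [h5, h6]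
  have h9 : x + y ≤ 1 := by
    by_contra h
    rw [not_le] at h
    have h7 : 0 ≤ 2 - x - y := by linarith only [hx1, hy1]
    have h77 := pow_le_pow_left₀ h7 (by linarith only [h] : 2 - x - y ≤ 1) 2
    have := sq_nonneg g
    linarith only [h5, h77, this, hσ0]
  have h10 : (1 - x - y) ^ 2 ≤ (1 - g) ^ 2 :=
    pow_le_pow_left₀ (by linarith only [h9]) (by linarith only [h4]) 2
  have h11 : (a - 1) ^ 2 + (b - 1) ^ 2 ≤ σ ^ 2 := by
    rw [hσ]; nlinarith only [mul_nonneg (sub_nonneg.2 ha) (sub_nonneg.2 hb)]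
  have h12 : 8 * g - 2 ≤ σ ^ 2 := by nlinarith only [hiii, h10, h11]
  have h13 : 2 / 25 * (1 + σ) ≤ g ^ 2 := by
    rw [hgg, hσ]
    have : a / 5 * (b / 5) ≤ p * q := mul_le_mul hp hq (by linarith) (by linarith)
    nlinarith only [mul_nonneg (sub_nonneg.2 ha) (sub_nonneg.2 hb), this]
  have h14 : (2828 : ℝ) / 10000 ≤ g := by
    by_contra h
    rw [not_le] at h
    have := pow_le_pow_left₀ hg h.le 2
    norm_num at this
    linarith only [this, h13, hσ0]
  rcases le_total g (33 / 100) with h | h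
  · have h16 := pow_le_pow_left₀ hg h 2
    norm_num at h16
    have h15 : σ ≤ 362 / 1000 := by linarith only [h16, h13]
    have h17 := pow_le_pow_left₀ hσ0 h15 2
    norm_num at h17
    linarith only [h17, h12, h14]
  · have h15 : σ ≤ 68 / 100 := by linarith only [h8, h]
    have h17 := pow_le_pow_left₀ hσ0 h15 2
    norm_num at h17
    linarith only [h17, h12, h]

theorem real_cap {A B κ ω z z' E : ℝ} (hA1 : A ≤ 1) (hB1 : B ≤ 1) (hκA : κ < A) (hωB : ω < B)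
    (hκ : -(1/4) ≤ κ) (hω : -(1/4) ≤ ω) (hz : 1/5 ≤ z) (hz' : 1/5 ≤ z')
    (hSA : 1 - 2 * z ^ 2 + 4 * κ ^ 2 ≤ (1 + 4 * κ) ^ 2)
    (hSB : 1 - 2 * z' ^ 2 + 4 * ω ^ 2 ≤ (1 + 4 * ω) ^ 2) (h0 : 0 ≤ E)
    (h2 : A * (1 + 4 * ω) + B * (1 + 4 * κ) - 4 * (A * B) ≤ E)
    (h3 : 0 ≤ B ^ 2 * (1 - 2 * z ^ 2 + 4 * κ ^ 2) + A ^ 2 * (1 - 2 * z' ^ 2 + 4 * ω ^ 2)
      + 2 * (A * B) * E - 2 * (A * B ^ 2) * (1 + 4 * κ) - 2 * (A ^ 2 * B) * (1 + 4 * ω)
      + 4 * (A ^ 2 * B ^ 2)) : 4 * (κ * ω) < E + 2 * (z * z') := by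
  have hzz : 1 / 25 ≤ z * z' := by
    have := mul_le_mul hz hz' (by norm_num) (by linarith only [hz])
    linarith only [this]
  rcases le_or_gt (κ * ω) 0 with h | h
  · linarith only [h, h0, hzz]
  rcases lt_trichotomy κ 0 with hk | hk | hk
  · have hw : ω < 0 := by
      by_contra hw
      rw [not_lt] at hw
      have := mul_nonpos_of_nonpos_of_nonneg hk.le hw
      linarith only [this, h]
    -- both negative
    have e1 : 5 / 2 * (-κ) ≤ z ^ 2 := by
      have := mul_nonneg (by linarith only [hk] : 0 ≤ -κ) (by linarith only [hκ] : 0 ≤ 3 / 2 + 6 * κ)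
      nlinarith only [this, hSA]
    have e2 : 5 / 2 * (-ω) ≤ z' ^ 2 := by
      have := mul_nonneg (by linarith only [hw] : 0 ≤ -ω) (by linarith only [hω] : 0 ≤ 3 / 2 + 6 * ω)
      nlinarith only [this, hSB]
    have e3 : 25 / 4 * (κ * ω) ≤ (z * z') ^ 2 := by
      have := mul_le_mul e1 e2 (by linarith only [hw]) (sq_nonneg z)
      nlinarith only [this]
    have e4 : κ * ω ≤ 1 / 16 := by
      have := mul_le_mul (by linarith only [hκ] : -κ ≤ 1 / 4) (by linarith only [hω] : -ω ≤ 1 / 4)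
        (by linarith only [hw]) (by norm_num)
      linarith only [this]
    have e5 : 2 * (κ * ω) < z * z' := by
      by_contra hc
      rw [not_lt] at hc
      have e6 := pow_le_pow_left₀ (by linarith only [hzz] : 0 ≤ z * z') hc 2
      have e7 := mul_nonneg h.le (sub_nonneg.2 e4)
      nlinarith only [e6, e7, e3, h]
    linarith only [e5, h0]
  · rw [hk] at h; simp at h
  · have hw : 0 < ω := by
      by_contra hw
      rw [not_lt] at hw
      have := mul_nonpos_of_nonneg_of_nonpos hk.le hw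
      linarith only [this, h]
    have hA : 0 < A := by linarith
    have hB : 0 < B := by linarith
    have hAB : 0 < A * B := mul_pos hA hB
    obtain ⟨a, ha⟩ : ∃ a, a = 1 / A := ⟨_, rfl⟩
    obtain ⟨b, hb⟩ : ∃ b, b = 1 / B := ⟨_, rfl⟩
    obtain ⟨x, hx⟩ : ∃ x, x = κ / A := ⟨_, rfl⟩
    obtain ⟨y, hy⟩ : ∃ y, y = ω / B := ⟨_, rfl⟩
    obtain ⟨p, hp⟩ : ∃ p, p = z / A := ⟨_, rfl⟩
    obtain ⟨q, hq⟩ : ∃ q, q = z' / B := ⟨_, rfl⟩
    obtain ⟨e, he⟩ : ∃ e, e = E / (A * B) := ⟨_, rfl⟩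
    have aA : a * A = 1 := by rw [ha]; field_simp
    have bB : b * B = 1 := by rw [hb]; field_simp
    have xA : κ = x * A := by rw [hx]; field_simp
    have yB : ω = y * B := by rw [hy]; field_simp
    have pA : z = p * A := by rw [hp]; field_simp
    have qB : z' = q * B := by rw [hq]; field_simp
    have eAB : E = e * (A * B) := by rw [he]; field_simp
    have h1a : 1 ≤ a := by rw [ha, le_div_iff₀ hA]; linarith
    have h1b : 1 ≤ b := by rw [hb, le_div_iff₀ hB]; linarith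
    have hx0 : 0 < x := by rw [hx]; positivity
    have hy0 : 0 < y := by rw [hy]; positivity
    have hx1 : x < 1 := by rw [hx, div_lt_one hA]; exact hκA
    have hy1 : y < 1 := by rw [hy, div_lt_one hB]; exact hωB
    have hp1 : a / 5 ≤ p := by
      rw [ha, hp, div_div, div_le_div_iff₀ (by positivity) hA]
      nlinarith only [mul_le_mul_of_nonneg_right hz hA.le]
    have hq1 : b / 5 ≤ q := by
      rw [hb, hq, div_div, div_le_div_iff₀ (by positivity) hB]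
      nlinarith only [mul_le_mul_of_nonneg_right hz' hB.le]
    have he0 : 0 ≤ e := by rw [he]; positivity
    have hpq : 0 ≤ 2 * (p * q) := by
      have : 0 ≤ p := by linarith
      have : 0 ≤ q := by linarith
      positivity
    have g2 : b + 4 * y + a + 4 * x - 4 ≤ e := by
      have : (b + 4 * y + a + 4 * x - 4 - e) * (A * B) ≤ 0 := by
        have e1 : (b + 4 * y + a + 4 * x - 4 - e) * (A * B) =
            A * (1 + 4 * ω) + B * (1 + 4 * κ) - 4 * (A * B) - E := by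
          rw [xA, yB, eAB]
          linear_combination A * bB + B * aA
        rw [e1]; linarith
      by_contra hc
      rw [not_le] at hc
      have := mul_pos (sub_pos.2 hc) hAB
      linarith
    have g3 : 0 ≤ a ^ 2 - 2 * p ^ 2 + 4 * x ^ 2 + b ^ 2 - 2 * q ^ 2 + 4 * y ^ 2 + 2 * e - 2 * a
        - 8 * x - 2 * b - 8 * y + 4 := by
      have e1 : (a ^ 2 - 2 * p ^ 2 + 4 * x ^ 2 + b ^ 2 - 2 * q ^ 2 + 4 * y ^ 2 + 2 * e - 2 * a
          - 8 * x - 2 * b - 8 * y + 4) * (A * B) ^ 2 =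
          B ^ 2 * (1 - 2 * z ^ 2 + 4 * κ ^ 2) + A ^ 2 * (1 - 2 * z' ^ 2 + 4 * ω ^ 2)
      + 2 * (A * B) * E - 2 * (A * B ^ 2) * (1 + 4 * κ) - 2 * (A ^ 2 * B) * (1 + 4 * ω)
      + 4 * (A ^ 2 * B ^ 2) := by
        rw [xA, yB, eAB, pA, qB]
        linear_combination (B ^ 2 * (a * A + 1) - 2 * A * B ^ 2) * aA +
          (A ^ 2 * (b * B + 1) - 2 * A ^ 2 * B) * bB
      by_contra hc
      rw [not_le] at hc
      have := mul_neg_of_neg_of_pos hc (pow_pos hAB 2)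
      linarith
    have key := cap_core h1a h1b hx0 hx1 hy0 hy1 hp1 hq1 he0 (Real.sqrt_nonneg _)
      (Real.sq_sqrt hpq) g2 g3
    have := mul_lt_mul_of_pos_right key hAB
    rw [xA, yB, eAB, pA, qB]
    linarith

end Vale.Agent.P052.H839
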